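import Vale.Agent.P011L.IF
import Mathlib.FieldTheory.Galois.Infinite

/-!
P011 (helper1): membership in the groups of the statement, stability under the Galois group.
-/

set_option linter.all false

open Matrix

namespace Vale.Agent.P011LT

open Vale.Agent.P011L

section

variable {K K' : Type} [Field K] [Field K']

theorem mem_SA {n : ℕ} {g : GL (Fin n) K} : g ∈ SA K n ↔ g.1.det = 1 := by
  rw [SA, MonoidHom.mem_ker, Units.ext_iff]
  rfl

theorem mem_SE {g : GL (Fin 3 × Fin 3 × Fin 3) K} : g ∈ SE K ↔ ∀ x, cub (g.1 *ᵥ x) = cub x := by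
  refine ⟨fun h => ?_, fun h => Subgroup.subset_closure h⟩
  induction h using Subgroup.closure_induction with
  | mem g h => exact h
  | one => intro x; rw [Units.val_one, one_mulVec]
  | mul g g' _ _ h h' => intro x; rw [Units.val_mul, ← mulVec_mulVec, h, h']
  | inv g _ h => intro x; rw [← h, mulVec_mulVec, Units.mul_inv, one_mulVec]

theorem mem_SD {g : GL (Fin 3 × Fin 3 × Fin 3) K} : g ∈ SD K ↔
    g ∈ SE K ∧ ∀ i, g.1 *ᵥ Pi.single (0, i, i) 1 = Pi.single (0, i, i) 1 := by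
  refine ⟨fun h => ?_, fun h => Subgroup.subset_closure h⟩
  induction h using Subgroup.closure_induction with
  | mem g h => exact h
  | one => exact ⟨one_mem _, fun i => by rw [Units.val_one, one_mulVec]⟩
  | mul g g' _ _ h h' =>
    exact ⟨mul_mem h.1 h'.1, fun i => by rw [Units.val_mul, ← mulVec_mulVec, h'.2, h.2]⟩
  | inv g _ h =>
    exact ⟨inv_mem h.1, fun i => by
      rw [← h.2 i, mulVec_mulVec, Units.inv_mul, one_mulVec, h.2 i]⟩

theorem SD_le : SD K ≤ SE K := fun _ h => (mem_SD.1 h).1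

theorem cub_map (f : K →+* K') (x : Fin 3 × Fin 3 × Fin 3 → K) : cub (f ∘ x) = f (cub x) := by
  simp [cub, det_fin_three, trace_fin_three, mul_apply, Fin.sum_univ_three]

theorem map_mulVec' {m : Type} [Fintype m] (f : K →+* K') (g : Matrix m m K) (x : m → K) :
    g.map f *ᵥ (f ∘ x) = f ∘ (g *ᵥ x) := funext fun i => (f.map_mulVec g x i).symm

theorem map_SE (σ : K ≃+* K) {g : GL (Fin 3 × Fin 3 × Fin 3) K} (h : g ∈ SE K) :
    GeneralLinearGroup.map (σ : K →+* K) g ∈ SE K := mem_SE.2 fun x => by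
  obtain ⟨y, rfl⟩ : ∃ y, x = (σ : K →+* K) ∘ y :=
    ⟨σ.symm ∘ x, funext fun i => (σ.apply_symm_apply _).symm⟩
  show cub (g.1.map (σ : K →+* K) *ᵥ _) = _
  rw [map_mulVec', cub_map, cub_map, mem_SE.1 h]

theorem map_single {m : Type} [DecidableEq m] (f : K →+* K') (i : m) :
    f ∘ (Pi.single i 1 : m → K) = Pi.single i 1 := funext fun j => by
  by_cases h : j = i <;> simp [Pi.single_apply, h]

theorem map_SD (σ : K ≃+* K) {g : GL (Fin 3 × Fin 3 × Fin 3) K} (h : g ∈ SD K) :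
    GeneralLinearGroup.map (σ : K →+* K) g ∈ SD K :=
  mem_SD.2 ⟨map_SE σ (SD_le h), fun i => by
    show g.1.map (σ : K →+* K) *ᵥ _ = _
    rw [← map_single (σ : K →+* K), map_mulVec', (mem_SD.1 h).2]⟩

variable (k : Type) [Field k] [Algebra k K]

theorem stab_SE : Stab k (SE K) := fun σ _ h => ⟨_, map_SE (σ : K ≃+* K) h, rfl⟩

theorem stab_SD : Stab k (SD K) := fun σ _ h => ⟨_, map_SD (σ : K ≃+* K) h, rfl⟩

theorem stab_SA (n : ℕ) : Stab k (SA K n) := fun σ g h =>
  ⟨GeneralLinearGroup.map (σ : K →+* K) g, mem_SA.2 (by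
    show (g.1.map (σ : K →+* K)).det = 1
    rw [← RingHom.mapMatrix_apply, ← RingHom.map_det, mem_SA.1 h, map_one]), rfl⟩

end

section

variable {k : Type} [Field k] {K : Type} [Field K] [Algebra k K] {m : Type} [Fintype m]
  [DecidableEq m] {G : Subgroup (GL m K)} {L L' : Type} [Field L] [Algebra k L] [Field L']
  [Algebra k L']

/-- the zero set -/
def Zs (k : Type) [Field k] [Algebra k K] (G : Subgroup (GL m K)) (L : Type) [Field L]
    [Algebra k L] : Set (GL m L) :=
  {g | ∀ p, Van k G p → MvPolynomial.aeval (fun e => g.1 e.1 e.2) p = 0}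

theorem Zs_le : Zs k G L ⊆ Pts k G L := Subgroup.subset_closure

theorem map_Zs (f : L →ₐ[k] L') {g : GL m L} :
    GeneralLinearGroup.map (f : L →+* L') g ∈ Zs k G L' ↔ g ∈ Zs k G L := by
  refine forall₂_congr fun p _ => ?_
  rw [← map_eq_zero_iff f f.injective, ← AlgHom.comp_apply, MvPolynomial.comp_aeval]
  rfl

theorem map_Pts (f : L →ₐ[k] L') {g : GL m L} (h : g ∈ Pts k G L) :
    GeneralLinearGroup.map (f : L →+* L') g ∈ Pts k G L' :=
  (Subgroup.closure_le (K := (Pts k G L').comap (GeneralLinearGroup.map (f : L →+* L')))).2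
    (fun _ h => Zs_le ((map_Zs f).2 h)) h

/-- the map on points -/
def mapP (f : L →ₐ[k] L') : Pts k G L →* Pts k G L' :=
  ((GeneralLinearGroup.map (f : L →+* L')).comp (Pts k G L).subtype).codRestrict (Pts k G L')
    fun g => map_Pts f g.2

theorem Zs_of_mem {g : GL m K} (h : g ∈ G) : g ∈ Zs k G K := fun _ hp => hp g h

theorem mem_iff_Zs (e : Pts k G K = G) {g : GL m K} : g ∈ G ↔ g ∈ Zs k G K :=
  ⟨Zs_of_mem, fun h => e ▸ Zs_le h⟩

/-- points over a subfield of `K` -/
theorem mem_Pts_sub (e : Pts k G K = G) (f : L →ₐ[k] K) {g : GL m L} :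
    g ∈ Pts k G L ↔ GeneralLinearGroup.map (f : L →+* K) g ∈ G :=
  ⟨fun h => e ▸ map_Pts f h, fun h => Zs_le ((map_Zs f).1 (Zs_of_mem h))⟩

theorem stab_of (e : Pts k G K = G) (σ : K →ₐ[k] K) {g : GL m K} (h : g ∈ G) :
    GeneralLinearGroup.map (σ : K →+* K) g ∈ G := (mem_Pts_sub e σ).1 (e.symm ▸ h)

end

theorem t2 : T2 := fun k K _ _ _ m _ _ G h => by
  refine ⟨MonoidHom.pi fun v => mapP (Algebra.ofId k v.abv.Completion), fun g v => rfl,
    fun N h1 h2 => ⟨⊤, isOpen_univ, inferInstance, ?_⟩⟩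
  rw [h N h1 h2, Subgroup.comap_top]

theorem PSimple.congr {G G' : Type} [Group G] [Group G'] (e : G ≃* G') (h : PSimple G') :
    PSimple G := fun N h1 h2 => by
  have := h (N.comap e.symm.toMonoidHom) (h1.comap _) fun h3 => h2 fun g hg =>
    Subgroup.mem_center_iff.2 fun x => e.injective (by
      rw [map_mul, map_mul]
      exact Subgroup.mem_center_iff.1 (h3 (show e.symm (e g) ∈ N by rwa [e.symm_apply_apply])) _)
  refine eq_top_iff.2 fun g _ => ?_
  have h4 : e g ∈ N.comap e.symm.toMonoidHom := this ▸ Subgroup.mem_top _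
  rwa [Subgroup.mem_comap, MulEquiv.coe_toMonoidHom, e.symm_apply_apply] at h4

theorem int_of (h1 : T1) (h2 : T2) (ha : TA) (he : HE) (hd : HD) : INT := by
  intro k K _ _ _ _ m G an
  refine ⟨ha k K m G an, fun φ nf f ⟨σ, hσ⟩ => ?_, fun φ nf f => ?_⟩
  · haveI : Infinite k := .of_injective _ Nat.cast_injective
    obtain ⟨T, ⟨e⟩, a, i⟩ := h1 k K _ _ G _ φ (stab_SD k) f
    exact h2 k K _ G (PSimple.congr e (hd k K T (a an) ⟨σ, fun h => hσ (i _ _ h)⟩))
  · haveI : Infinite k := .of_injective _ Nat.cast_injective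
    obtain ⟨T, ⟨e⟩, a, -⟩ := h1 k K _ _ G _ φ (stab_SE k) f
    exact h2 k K _ G (PSimple.congr e (he k K T (a an)))

end Vale.Agent.P011LT
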