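import Vale.Agent.P011LT.Tor

/-!
P011 (helper1): forms give twisted actions.
-/

set_option linter.all false

open Matrix

namespace Vale.Agent.P011LT

open Vale.Agent.P011L

variable {k : Type} [Field k] {K : Type} [Field K] [Algebra k K] {m n : Type} [Fintype m]
  [DecidableEq m] [Fintype n] [DecidableEq n] {G : Subgroup (GL m K)} {H : Subgroup (GL n K)}

/-- the action of the Galois group on `G` -/
def gal (e : Pts k G K = G) : (K ≃ₐ[k] K) →* MulAut G where
  toFun σ :=
    { toFun := fun g => ⟨_, stab_of e σ.toAlgHom g.2⟩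
      invFun := fun g => ⟨_, stab_of e σ.symm.toAlgHom g.2⟩
      left_inv := fun g => Subtype.ext (Units.ext (Matrix.ext fun i j => σ.symm_apply_apply _))
      right_inv := fun g => Subtype.ext (Units.ext (Matrix.ext fun i j => σ.apply_symm_apply _))
      map_mul' := fun g h => Subtype.ext (map_mul _ g.1 h.1) }
  map_one' := rfl
  map_mul' _ _ := rfl

theorem gal_val (e : Pts k G K = G) (σ : K ≃ₐ[k] K) (g : G) : (gal e σ g).1.1 = g.1.1.map σ := rfl

theorem map_eval {ι : Type} (σ : K ≃ₐ[k] K) (x : ι → K) (p : MvPolynomial ι K) :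
    σ (MvPolynomial.eval x p) =
      MvPolynomial.eval (fun i => σ (x i)) (MvPolynomial.map (σ : K →+* K) p) := by
  induction p using MvPolynomial.induction_on with
  | C c => simp
  | add p q a b => simp [a, b]
  | mul_X p i a => simp [a]

/-- the twisted action -/
noncomputable def tw [Algebra.IsAlgebraic k K] {φ : G ≃* H} (s : Stab k H) (f : Form k φ) :
    Tw k H where
  a := (MulAut.congr φ).toMonoidHom.comp (gal f.1)
  pol σ i j := by
    obtain ⟨p, hp⟩ := f.2.1 i j
    choose q hq using f.2.2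
    refine ⟨MvPolynomial.bind₁ (fun e => MvPolynomial.map (σ : K →+* K) (q e.1 e.2)) p, fun g => ?_⟩
    refine (hp (gal f.1 σ (φ.symm g))).trans ?_
    rw [← MvPolynomial.coe_aeval_eq_eval, ← MvPolynomial.coe_aeval_eq_eval, RingHom.coe_coe,
      RingHom.coe_coe, MvPolynomial.aeval_bind₁]
    refine congrArg (fun x => MvPolynomial.aeval x p) (funext fun e => ?_)
    rw [gal_val, map_apply, hq, map_eval]
    rfl
  cont := by
    classical
    choose q hq using f.2.2
    let S : Finset K := Finset.univ.biUnion fun e : m × m => (q e.1 e.2).coeffs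
    refine ⟨.adjoin k (S : Set K), IntermediateField.finiteDimensional_adjoin fun x _ =>
      (Algebra.IsAlgebraic.isAlgebraic x).isIntegral, fun σ hσ g => ?_⟩
    obtain ⟨g', h1, h2⟩ := s σ g.1 g.2
    have : gal f.1 σ (φ.symm g) = φ.symm ⟨g', h1⟩ := Subtype.ext (Units.ext (Matrix.ext fun i j => by
      have h3 : MvPolynomial.map (σ : K →+* K) (q i j) = q i j := MvPolynomial.ext _ _ fun d => by
        rw [MvPolynomial.coeff_map]
        by_cases h : d ∈ (q i j).support
        · exact hσ _ (IntermediateField.subset_adjoin _ _ (Finset.mem_coe.2 (Finset.mem_biUnion.2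
            ⟨(i, j), Finset.mem_univ _, MvPolynomial.coeff_mem_coeffs d
              (MvPolynomial.mem_support_iff.1 h)⟩)))
        · rw [MvPolynomial.notMem_support_iff.1 h, map_zero]
      rw [gal_val, map_apply, hq, hq, map_eval, h3]
      exact congrArg (fun x => MvPolynomial.eval x _) (funext fun e => by rw [h2]; rfl)))
    show (φ (gal f.1 σ (φ.symm g))).1.1 = _
    rw [this, φ.apply_symm_apply, h2]

theorem exists_down [IsGalois k K] {g : GL m K} (h : ∀ σ : K ≃ₐ[k] K, g.1.map σ = g.1) :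
    ∃ g' : GL m k, GeneralLinearGroup.map (algebraMap k K) g' = g := by
  choose A hA using fun i j => (InfiniteGalois.mem_range_algebraMap_iff_fixed (k := k)
    (g.1 i j)).2 fun σ => congrFun₂ (h σ) i j
  have e : (algebraMap k K).mapMatrix (of A) = g.1 := Matrix.ext hA
  refine ⟨GeneralLinearGroup.mkOfDetNeZero (of A) fun h0 => ?_, Units.ext e⟩
  have := (algebraMap k K).map_det (of A)
  rw [h0, map_zero, e] at this
  exact g.det_ne_zero this.symm

theorem lau_conj {ι : Type} (g : GL n K) (y : n → ℤ) {x : kˣ → ι → K} (a b : ι → n)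
    (h : ∀ t e, x t e = (g.1 * (diagonal fun i =>
      (Units.map (algebraMap k K : k →* K) t ^ y i).1) * (g⁻¹).1) (a e) (b e))
    (q : MvPolynomial ι K) : (fun t => MvPolynomial.eval (x t) q) ∈ Lau k K := by
  refine Lau.eval (fun e => Lau.congr (Submodule.sum_mem _ fun i (_ : i ∈ Finset.univ) =>
    (Lau k K).smul_mem (g.1 (a e) i * (g⁻¹).1 i (b e)) (Lau.ch (y i))) fun t => ?_) q
  rw [h, mul_apply, Finset.sum_apply]
  refine Finset.sum_congr rfl fun i _ => ?_
  rw [mul_diagonal, mul_right_comm, ← map_zpow]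
  rfl

theorem ani_of [Infinite k] {φ : G ≃* H} (f : Pol φ.symm) (an : Ani (Pts k G k))
    {ι : Pts k G k →* G} (hι : ∀ g, (ι g).1.1 = g.1.1.map (algebraMap k K)) (g : GL n K)
    (y : n → ℤ) (l : Kˣ → H) (h1 : ∀ t, (l t).1.1 * g.1 = g.1 * diagonal fun i => (t ^ y i).1)
    {w : kˣ → Pts k G k}
    (hw : ∀ t, ι (w t) = φ.symm (l (Units.map (algebraMap k K : k →* K) t))) : y = 0 := by
  have hi : Function.Injective ι := fun g g' e => Subtype.ext (Units.ext
    (map_injective (algebraMap k K).injective (by rw [← hι, ← hι, e] : g.1.1.map _ = g'.1.1.map _)))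
  have h3 : ∀ t, (l t).1.1 = g.1 * (diagonal fun i => (t ^ y i).1) * (g⁻¹).1 := fun t => by
    rw [← h1, mul_assoc, Units.mul_inv, mul_one]
  have h4 : ∀ t t', l (t * t') = l t * l t' := fun t t' => Subtype.ext (Units.ext (by
    rw [Subgroup.coe_mul, Units.val_mul, h3 t, mul_assoc, mul_assoc, h3, h3,
      ← mul_assoc (g⁻¹).1, ← mul_assoc (g⁻¹).1, Units.inv_mul, one_mul, ← mul_assoc (diagonal _),
      diagonal_mul_diagonal, mul_assoc]
    simp only [mul_zpow, Units.val_mul]))
  let w' : kˣ →* Pts k G k := .mk' w fun t t' => hi (by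
    rw [map_mul, hw, hw, hw, map_mul, h4, map_mul])
  obtain ⟨g', y', h5⟩ := diag_of_lau ((Pts k G k).subtype.comp w') fun a b => by
    obtain ⟨q, hq⟩ := f a b
    refine Lau.desc (K := K) (Lau.congr (lau_conj g y Prod.fst Prod.snd
      (fun t e => congrFun₂ (h3 _) e.1 e.2) q) fun t => ?_)
    rw [← hq, ← hw, hι]
    rfl
  obtain rfl := an g' y' fun t => ⟨_, (w t).2, h5 t⟩
  refine funext fun i => zpow_eq_one (k := k) fun t => ?_
  have h6 : w t = 1 := Subtype.ext (Units.ext (by
    have := h5 t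
    simp only [Pi.zero_apply, zpow_zero, Units.val_one, diagonal_one, mul_one] at this
    exact g'.mul_left_inj.1 (this.trans (one_mul _).symm)))
  have h7 : l (Units.map (algebraMap k K : k →* K) t) = 1 :=
    φ.symm.injective (by rw [← hw, h6, map_one, map_one])
  have h8 := h1 (Units.map (algebraMap k K : k →* K) t)
  rw [h7, OneMemClass.coe_one, Units.val_one, one_mul] at h8
  have h9 := congrFun₂ (g.mul_right_inj.1 ((mul_one _).trans h8)) i i
  rw [one_apply_eq, diagonal_apply_eq, ← map_zpow] at h9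
  exact Units.ext ((algebraMap k K).injective (h9.symm.trans (map_one _).symm))

theorem t1 : T1 := by
  intro k K _ _ _ _ _ m n _ _ _ _ G H φ s f
  have ha : ∀ σ g, (tw s f).a σ (φ g) = φ (gal f.1 σ g) := fun σ g =>
    congrArg (fun x => φ (gal f.1 σ x)) (φ.symm_apply_apply g)
  let ι : Pts k G k →* G := ((GeneralLinearGroup.map (algebraMap k K)).comp
    (Pts k G k).subtype).codRestrict G fun g => (mem_Pts_sub f.1 (Algebra.ofId k K)).1 g.2
  have hι : Function.Injective ι := fun g g' e => Subtype.ext (Units.ext (Matrix.ext fun i j =>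
    (algebraMap k K).injective (congrArg (fun x : G => x.1.1 i j) e)))
  have hf : ∀ g : G, φ g ∈ (tw s f).fix ↔ g ∈ ι.range := fun g => by
    refine ⟨fun h => ?_, ?_⟩
    · obtain ⟨g', e⟩ := exists_down (k := k) (g := g.1) fun σ =>
        congrArg (fun x : G => x.1.1) (φ.injective ((ha σ g).symm.trans (h σ)))
      exact ⟨⟨g', (mem_Pts_sub f.1 (Algebra.ofId k K)).2 (e.symm ▸ g.2 :)⟩, Subtype.ext e⟩
    · rintro ⟨g, rfl⟩ σ
      rw [ha]
      exact congrArg φ (Subtype.ext (Units.ext (Matrix.ext fun i j => σ.commutes _)))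
  refine ⟨tw s f, ⟨MulEquiv.ofBijective ((φ.toMonoidHom.comp ι).codRestrict _
    fun g => (hf _).2 ⟨g, rfl⟩) ⟨fun g g' e => hι (φ.injective (congrArg Subtype.val e)),
      fun h => ?_⟩⟩, fun an g y l h1 h2 => ?_, fun S σ ⟨x, hx, h⟩ => ⟨x, hx, fun g g' e => ?_⟩⟩
  · obtain ⟨g, e⟩ := (hf (φ.symm h.1)).1 (by rw [φ.apply_symm_apply]; exact h.2)
    exact ⟨g, Subtype.ext (show φ (ι g) = _ by rw [e, φ.apply_symm_apply])⟩
  · choose w hw using fun t : kˣ =>
      (hf (φ.symm (l (Units.map (algebraMap k K : k →* K) t)))).1 (by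
        rw [φ.apply_symm_apply]
        exact fun σ => (h2 σ _).trans (congrArg l (Units.ext (σ.commutes _))))
    exact ani_of f.2.2 an (fun _ => rfl) g y l h1 hw
  · rw [show g' = gal f.1 σ g from Subtype.ext (Units.ext e), ← ha, h]

theorem int_of' (ha : TA) (he : HE) (hd : HD) : INT := int_of t1 t2 ha he hd

end Vale.Agent.P011LT
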