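import Vale.Agent.P011LT.Basic
import Mathlib.RingTheory.RootsOfUnity.Basic
import Mathlib.LinearAlgebra.Matrix.Basis

/-!
P011 (helper1): cocharacters with Laurent entries are diagonalisable.
-/

set_option linter.all false

open Matrix

namespace Vale.Agent.P011LT

open Vale.Agent.P011L

variable {k : Type} [Field k] {K : Type} [Field K] [Algebra k K] {m : Type} [Fintype m]
  [DecidableEq m]

theorem zpow_eq_one [Infinite k] {j : ℤ} (h : ∀ t : kˣ, t ^ j = 1) : j = 0 := by
  by_contra h0
  haveI : NeZero j.natAbs := ⟨Int.natAbs_ne_zero.2 h0⟩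
  have h1 : ∀ t : kˣ, t ∈ rootsOfUnity j.natAbs k := fun t => by
    rw [mem_rootsOfUnity, ← zpow_natCast]
    rcases Int.natAbs_eq j with e | e
    · rw [← e, h]
    · rw [← neg_neg (j.natAbs : ℤ), ← e, zpow_neg, h, inv_one]
  haveI : Finite kˣ := .of_injective (fun t => (⟨t, h1 t⟩ : rootsOfUnity j.natAbs k))
    fun _ _ e => congrArg Subtype.val e
  exact not_finite_iff_infinite.2 ‹_› (.of_surjective (fun t : Option kˣ => (t.elim 0 (↑) : k))
    fun x => by
      by_cases e : x = 0
      · exact ⟨none, e.symm⟩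
      · exact ⟨some (Units.mk0 x e), rfl⟩)

/-- the character `t ↦ t ^ j` -/
def ch (k : Type) [Field k] (j : ℤ) : kˣ →* k := (Units.coeHom k).comp (zpowGroupHom j)

theorem ch_apply (j : ℤ) (t : kˣ) : ch k j t = (t ^ j).1 := rfl

theorem ch_li [Infinite k] : LinearIndependent k fun j => (ch k j : kˣ → k) :=
  (linearIndependent_monoidHom kˣ k).comp (ch k) fun i j e => sub_eq_zero.1 (zpow_eq_one (k := k)
    fun t => by
      have : t ^ i = t ^ j := Units.ext (DFunLike.congr_fun e t)
      rw [zpow_sub, this, mul_inv_cancel])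

/-- Laurent polynomials as functions -/
def Lau (k K : Type) [Field k] [Field K] [Algebra k K] : Submodule K (kˣ → K) :=
  Submodule.span K (Set.range fun (j : ℤ) (t : kˣ) => algebraMap k K (ch k j t))

theorem Lau.congr {f g : kˣ → K} (h : f ∈ Lau k K) (e : ∀ t, g t = f t) : g ∈ Lau k K :=
  (funext e : g = f) ▸ h

theorem Lau.ch (j : ℤ) : (fun t => algebraMap k K (ch k j t)) ∈ Lau k K :=
  Submodule.subset_span ⟨j, rfl⟩

theorem Lau.const (c : K) : (fun _ => c) ∈ Lau k K :=
  Lau.congr ((Lau k K).smul_mem c (Lau.ch 0)) fun t => by simp [ch_apply]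

theorem Lau.mul {f g : kˣ → K} (hf : f ∈ Lau k K) (hg : g ∈ Lau k K) : f * g ∈ Lau k K := by
  induction hf, hg using Submodule.span_induction₂ with
  | mem_mem f g hf hg =>
    obtain ⟨i, rfl⟩ := hf
    obtain ⟨j, rfl⟩ := hg
    exact Lau.congr (Lau.ch (i + j)) fun t => by simp [ch_apply, zpow_add₀]
  | zero_left => rw [zero_mul]; exact zero_mem _
  | zero_right => rw [mul_zero]; exact zero_mem _
  | add_left _ _ _ _ _ _ a b => rw [add_mul]; exact add_mem a b
  | add_right _ _ _ _ _ _ a b => rw [mul_add]; exact add_mem a b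
  | smul_left _ _ _ _ _ a => rw [smul_mul_assoc]; exact Submodule.smul_mem _ _ a
  | smul_right _ _ _ _ _ a => rw [mul_smul_comm]; exact Submodule.smul_mem _ _ a

theorem Lau.eval {ι : Type} {x : kˣ → ι → K} (h : ∀ i, (fun t => x t i) ∈ Lau k K)
    (p : MvPolynomial ι K) : (fun t => MvPolynomial.eval (x t) p) ∈ Lau k K := by
  induction p using MvPolynomial.induction_on with
  | C c => exact Lau.congr (Lau.const c) fun t => by simp
  | add p q a b => exact Lau.congr (add_mem a b) fun t => by simp
  | mul_X p i a => exact Lau.congr (Lau.mul a (h i)) fun t => by simp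

theorem Lau.desc {f : kˣ → k} (h : (fun t => algebraMap k K (f t)) ∈ Lau k K) : f ∈ Lau k k := by
  obtain ⟨π, hπ⟩ := (Algebra.linearMap k K).exists_leftInverse_of_injective
    (LinearMap.ker_eq_bot.2 (algebraMap k K).injective)
  have h1 : ∀ g ∈ Lau k K, ∀ c : K, (fun t => π (c * g t)) ∈ Lau k k := fun g hg => by
    induction hg using Submodule.span_induction with
    | mem g hg =>
      obtain ⟨j, rfl⟩ := hg
      intro c
      refine Lau.congr ((Lau k k).smul_mem (π c) (Lau.ch j)) fun t => ?_
      rw [mul_comm c, ← Algebra.smul_def, map_smul, smul_eq_mul, mul_comm]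
      rfl
    | zero => exact fun c => Lau.congr (zero_mem _) fun t => by simp
    | add _ _ _ _ a b => exact fun c => Lau.congr (add_mem (a c) (b c)) fun t => by simp [mul_add]
    | smul d _ _ a => exact fun c => Lau.congr (a (c * d)) fun t => by simp [mul_assoc]
  refine Lau.congr (h1 _ h 1) fun t => ?_
  rw [one_mul]
  exact (LinearMap.congr_fun hπ (f t)).symm

theorem diag_of_lau [Infinite k] (l : kˣ →* GL m k) (h : ∀ a b, (fun t => (l t).1 a b) ∈ Lau k k) :
    ∃ (g : GL m k) (y : m → ℤ), ∀ t, (l t).1 * g.1 = g.1 * diagonal fun i => (t ^ y i).1 := by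
  choose c hc using fun a b => (Finsupp.mem_span_range_iff_exists_finsupp).1 (h a b)
  let s : Finset ℤ := Finset.univ.biUnion fun e : m × m => (c e.1 e.2).support
  have h1 : ∀ t a b, (l t).1 a b = ∑ j ∈ s, c a b j * ch k j t := fun t a b => by
    have hs : (c a b).support ⊆ s := Finset.subset_biUnion_of_mem
      (fun e : m × m => (c e.1 e.2).support) (Finset.mem_univ (a, b))
    rw [← congrFun (hc a b) t, Finsupp.sum_of_support_subset _ hs _ ?_, Finset.sum_apply]
    · rfl
    · exact fun _ _ => zero_smul _ _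
  let S : Set (m → k) := {v | ∃ j : ℤ, ∀ t, (l t).1 *ᵥ v = (t ^ j).1 • v}
  have h2 : ∀ b, ∀ j ∈ s, (fun a => c a b j) ∈ S := fun b j hj => ⟨j, fun u => funext fun a => by
    refine sub_eq_zero.1 (linearIndependent_iff'.1 (ch_li (k := k)) s
      (fun j => ((l u).1 *ᵥ fun a => c a b j) a - (u ^ j).1 * c a b j) (funext fun t => ?_) j hj)
    have e : ∑ a', (l u).1 a a' * (l t).1 a' b = (l (u * t)).1 a b := by
      rw [map_mul, Units.val_mul, mul_apply]
    simp only [Finset.sum_apply, Pi.smul_apply, smul_eq_mul, sub_mul, Finset.sum_sub_distrib,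
      Pi.zero_apply, mulVec, dotProduct, Finset.sum_mul]
    rw [Finset.sum_comm, sub_eq_zero]
    simp only [h1 t, h1 (u * t), Finset.mul_sum] at e
    simp only [mul_assoc]
    rw [e]
    exact Finset.sum_congr rfl fun j _ => by rw [map_mul, ch_apply j u]; ring⟩
  have h3 : ⊤ ≤ Submodule.span k S := by
    rw [← (Pi.basisFun k m).span_eq, Submodule.span_le]
    rintro _ ⟨b, rfl⟩
    have : Pi.basisFun k m b = ∑ j ∈ s, fun a => c a b j := funext fun a => by
      have := h1 1 a b
      simp only [map_one, mul_one, Units.val_one] at this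
      rw [Finset.sum_apply, ← this, Pi.basisFun_apply, one_apply, Pi.single_apply]
    exact this ▸ Submodule.sum_mem _ fun j hj => Submodule.subset_span (h2 b j hj)
  let B := (Module.Basis.ofSpan h3).reindex ((Module.Basis.ofSpan h3).indexEquiv (Pi.basisFun k m))
  have h4 : ∀ i, B i ∈ S := fun i => Module.Basis.ofSpan_subset h3 ⟨_, (Module.Basis.reindex_apply ..).symm⟩
  choose y hy using h4
  haveI := (Pi.basisFun k m).invertibleToMatrix B
  refine ⟨unitOfInvertible ((Pi.basisFun k m).toMatrix B), y, fun t => ?_⟩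
  ext a i
  rw [mul_diagonal, mul_comm]
  exact congrFun (hy i t) a

end Vale.Agent.P011LT
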